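import Vale.Agent.P167.H632.S2.Unif
import Vale.Agent.P167.QE.OnL

/-!
# P167, Stage II, S2-CLOSE: closeness of the interior observable at stopping indices from the
geometric input `Geo2Q` and the limit `PasLim` of the probabilities of `L`
-/

set_option autoImplicit false
set_option linter.unusedVariables false

open MeasureTheory Filter Topology Set

namespace Vale.Agent.P167.H632S2

open Vale.Agent.P167.FK
open Vale.Agent.P167.E6 Vale.Agent.P167.E2
open Vale.Agent.P153.R2.Final (dom circ toC IsUniformizer)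
open Vale.Agent.P153.R2
open Vale.Agent.P153.M1
open Vale.Agent.P167.QE
open Vale.Agent.P167.H397.Q
open Vale.Agent.P167.H411 (Set6 exn cyl mem_cyl cyl_sub AsymB good_ev DCs Qc)
open Vale.Agent.P167.H212 (pz obsL arg_flow continuous_pz)
open Vale.Agent.P167.H947 (flow hasDerivAt_flow)

/-! ### Analysis -/

/-- A monotone function which is continuous on an open interval is uniformly continuous there. -/
theorem mono_uc {f : ℝ → ℝ} (hf : Monotone f) {a b : ℝ} (hab : a < b)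
    (hc : ContinuousOn f (Ioo a b)) {η : ℝ} (hη : 0 < η) :
    ∃ ε : ℝ, 0 < ε ∧ ∀ x ∈ Ioo a b, ∀ y ∈ Ioo a b, |x - y| ≤ ε → |f x - f y| ≤ η := by
  have h1 : ContinuousOn (extendFrom (Ioo a b) f) (Icc a b) :=
    continuousOn_Icc_extendFrom_Ioo hc (hf.tendsto_nhdsGT a) (hf.tendsto_nhdsLT b)
  have h2 := isCompact_Icc.uniformContinuousOn_of_continuous h1
  rw [Metric.uniformContinuousOn_iff] at h2
  obtain ⟨ε, hε, h⟩ := h2 η hη
  refine ⟨ε / 2, by positivity, fun x hx y hy hxy => ?_⟩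
  have h3 := h x (Ioo_subset_Icc_self hx) y (Ioo_subset_Icc_self hy)
    (by rw [Real.dist_eq]; linarith)
  rw [extendFrom_extends hc x hx, extendFrom_extends hc y hy, Real.dist_eq] at h3
  exact h3.le

/-- The argument of the flow is continuous in the angle. -/
theorem arg_cont {T R : ℝ} (hT : 0 ≤ T) (hR : 0 ≤ R) : ∃ b₀ : ℝ, 0 < b₀ ∧
    ∀ (W : ℝ → ℝ) (b t : ℝ), 0 ≤ t → t ≤ T → ContinuousOn W (Icc 0 t) →
      (∀ s ∈ Icc 0 t, |W s| ≤ R) → b₀ ≤ b →
      ContinuousOn (fun θ => (flow W t (pz b θ) - W t).arg) (Ioo 0 Real.pi) ∧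
      ∀ θ ∈ Ioo 0 Real.pi, (flow W t (pz b θ) - W t).arg ∈ Ioo 0 Real.pi := by
  obtain ⟨C, b₀, hC, hb₀, h⟩ := arg_flow hT hR
  refine ⟨b₀, hb₀, fun W b t ht htT hW hWR hb => ⟨?_, ?_⟩⟩
  · intro θ hθ
    obtain ⟨⟨g, hg⟩, him, -⟩ := h W b t ht htT hW hWR hb θ hθ.1 hθ.2
    have h2 : ContinuousAt (fun θ => flow W t (pz b θ) - W t) θ :=
      ((hasDerivAt_flow ht hW hg).continuousAt.comp (continuous_pz b).continuousAt).sub
        continuousAt_const
    have h3 : (flow W t (pz b θ) - W t) ∈ Complex.slitPlane := by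
      rw [Complex.mem_slitPlane_iff]
      exact Or.inr him.ne'
    exact (ContinuousAt.comp (f := fun θ => flow W t (pz b θ) - W t)
      (Complex.continuousAt_arg h3) h2).continuousWithinAt
  · intro θ hθ
    obtain ⟨-, him, -⟩ := h W b t ht htT hW hWR hb θ hθ.1 hθ.2
    refine ⟨?_, ?_⟩
    · have h1 : 0 ≤ (flow W t (pz b θ) - W t).arg := Complex.arg_nonneg_iff.2 him.le
      refine lt_of_le_of_ne h1 fun h2 => ?_
      have h3 := Complex.arg_eq_zero_iff.1 h2.symm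
      rw [h3.2] at him
      exact lt_irrefl _ him
    · exact Complex.arg_lt_pi_iff.2 (Or.inr him.ne')

/-! ### Conditional expectations -/

section

variable {A B : Type*} {X : Expl A B} {w : A → ℝ}

theorem exW_integral {C : Set A} (hf : C.Finite) {g : ℝ → A → ℝ} {m : ℝ → ℝ} {I : Set ℝ}
    (hg : ∀ a ∈ C, IntegrableOn (fun θ => g θ a * m θ) I) :
    ExW C w (fun a => ∫ θ in I, g θ a * m θ) = ∫ θ in I, ExW C w (g θ) * m θ := by
  rw [exW_eq_sum hf]
  have e : ∀ θ, ExW C w (g θ) * m θ =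
      (∑ h ∈ hf.toFinset, w h * (g θ h * m θ)) / ∑ h ∈ hf.toFinset, w h := by
    intro θ
    rw [exW_eq_sum hf, div_mul_eq_mul_div, Finset.sum_mul]
    congr 1
    exact Finset.sum_congr rfl fun h _ => by ring
  simp only [e]
  rw [integral_div, integral_finsetSum _ fun h hh => (hg h (hf.mem_toFinset.1 hh)).const_mul _]
  congr 1
  refine Finset.sum_congr rfl fun h _ => ?_
  rw [integral_const_mul]

theorem cexW_affine (hf : X.C.Finite) (hw : ∀ a ∈ X.C, 0 < w a) {h : A} (hh : h ∈ X.C) (k : ℕ)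
    (s t : ℝ) (g : A → ℝ) :
    cexW X w (fun a => s + t * g a) h k = s + t * cexW X w g h k := by
  have hfc : (cyl X h k).Finite := cyl_fin hf h k
  have hne : (cyl X h k).Nonempty := ⟨h, mem_cyl hh k⟩
  unfold cexW
  rw [exW_add hfc w (fun _ => s) (fun a => t * g a), exW_smul hfc,
    exW_const hfc hne fun a ha => hw a (cyl_sub X h k ha)]

theorem cexW_mem01 (hf : X.C.Finite) (hw : ∀ a ∈ X.C, 0 < w a) {h : A} (hh : h ∈ X.C) (k : ℕ)
    {g : A → ℝ} (h0 : ∀ a, 0 ≤ g a) (h1 : ∀ a, g a ≤ 1) :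
    0 ≤ cexW X w g h k ∧ cexW X w g h k ≤ 1 := by
  have hfc : (cyl X h k).Finite := cyl_fin hf h k
  have hne : (cyl X h k).Nonempty := ⟨h, mem_cyl hh k⟩
  refine ⟨cexW_nonneg hw (fun a _ => h0 a) h k, ?_⟩
  have h2 := exW_mono hfc (f := g) (g := fun _ => (1 : ℝ))
    (fun a ha => hw a (cyl_sub X h k ha)) (fun a _ => h1 a)
  rwa [exW_const hfc hne fun a ha => hw a (cyl_sub X h k ha)] at h2

end

/-! ### The integral over the angle -/

theorem int_close {F G : ℝ → ℝ} {K₀ ε η : ℝ} (hK : 0 ≤ K₀) (hε : 0 < ε) (hη : 0 ≤ η)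
    (hF0 : ∀ θ ∈ Ioo 0 Real.pi, 0 ≤ F θ ∧ F θ ≤ 1) (hG0 : ∀ θ ∈ Ioo 0 Real.pi, 0 ≤ G θ ∧ G θ ≤ 1)
    (hF : AEStronglyMeasurable F (volume.restrict (Ioo 0 Real.pi)))
    (hG : AEStronglyMeasurable G (volume.restrict (Ioo 0 Real.pi)))
    (h : ∀ θ ∈ Icc ε (Real.pi - ε), |F θ - G θ| ≤ η) :
    |(∫ θ in Ioo 0 Real.pi, F θ * (K₀ + θ)) - ∫ θ in Ioo 0 Real.pi, G θ * (K₀ + θ)| ≤
      (K₀ + Real.pi) * (Real.pi * η + 2 * ε) := by
  have hp := Real.pi_pos
  have hfin : volume (Ioo 0 Real.pi) < ⊤ := by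
    rw [Real.volume_Ioo]; exact ENNReal.ofReal_lt_top
  have hint : ∀ H : ℝ → ℝ, (∀ θ ∈ Ioo 0 Real.pi, 0 ≤ H θ ∧ H θ ≤ 1) →
      AEStronglyMeasurable H (volume.restrict (Ioo 0 Real.pi)) →
      IntegrableOn (fun θ => H θ * (K₀ + θ)) (Ioo 0 Real.pi) := by
    intro H h0 hm
    refine Integrable.of_bound (C := K₀ + Real.pi)
      (hm.mul ((continuous_const.add continuous_id).aestronglyMeasurable)) ?_
    filter_upwards [ae_restrict_mem measurableSet_Ioo] with θ hθ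
    rw [Real.norm_eq_abs, abs_mul, abs_of_nonneg (h0 θ hθ).1,
      abs_of_nonneg (by linarith [hθ.1] : 0 ≤ K₀ + θ)]
    calc H θ * (K₀ + θ) ≤ 1 * (K₀ + Real.pi) :=
          mul_le_mul (h0 θ hθ).2 (by linarith [hθ.2]) (by linarith [hθ.1]) zero_le_one
      _ = _ := one_mul _
  rw [← integral_sub (hint F hF0 hF) (hint G hG0 hG)]
  set B : Set ℝ := (Icc ε (Real.pi - ε))ᶜ with hB
  have hBm : MeasurableSet B := measurableSet_Icc.compl
  have hpt : ∀ θ ∈ Ioo 0 Real.pi, ‖F θ * (K₀ + θ) - G θ * (K₀ + θ)‖ ≤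
      (K₀ + Real.pi) * η + B.indicator (fun _ => K₀ + Real.pi) θ := by
    intro θ hθ
    rw [← sub_mul, norm_mul, Real.norm_eq_abs, Real.norm_eq_abs,
      abs_of_nonneg (by linarith [hθ.1] : 0 ≤ K₀ + θ)]
    by_cases h1 : θ ∈ B
    · rw [indicator_of_mem h1]
      have h2 : |F θ - G θ| ≤ 1 := by
        obtain ⟨a1, a2⟩ := hF0 θ hθ
        obtain ⟨a3, a4⟩ := hG0 θ hθ
        rw [abs_le]
        constructor <;> linarith
      have h3 : |F θ - G θ| * (K₀ + θ) ≤ 1 * (K₀ + Real.pi) :=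
        mul_le_mul h2 (by linarith [hθ.2]) (by linarith [hθ.1]) zero_le_one
      have h4 : 0 ≤ (K₀ + Real.pi) * η := by positivity
      linarith
    · rw [indicator_of_notMem h1, add_zero]
      have h2 : θ ∈ Icc ε (Real.pi - ε) := by
        by_contra h3
        exact h1 h3
      rw [mul_comm (K₀ + Real.pi)]
      exact mul_le_mul (h θ h2) (by linarith [hθ.2]) (by linarith [hθ.1]) hη
  have hgi : IntegrableOn (fun θ => (K₀ + Real.pi) * η + B.indicator (fun _ => K₀ + Real.pi) θ)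
      (Ioo 0 Real.pi) := by
    refine Integrable.add (integrableOn_const hfin.ne) ?_
    exact (integrableOn_const hfin.ne).indicator hBm
  have h1 := norm_integral_le_of_norm_le (μ := volume.restrict (Ioo 0 Real.pi)) hgi
    (by filter_upwards [ae_restrict_mem measurableSet_Ioo] with θ hθ using hpt θ hθ)
  rw [Real.norm_eq_abs] at h1
  refine h1.trans ?_
  have i1 : Integrable (fun _ : ℝ => (K₀ + Real.pi) * η) (volume.restrict (Ioo 0 Real.pi)) :=
    integrableOn_const hfin.ne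
  have i2 : Integrable (B.indicator fun _ : ℝ => K₀ + Real.pi)
      (volume.restrict (Ioo 0 Real.pi)) :=
    (show Integrable (fun _ : ℝ => K₀ + Real.pi) (volume.restrict (Ioo 0 Real.pi)) from
      integrableOn_const hfin.ne).indicator hBm
  rw [integral_add i1 i2, setIntegral_const,
    integral_indicator hBm, Measure.restrict_restrict hBm, setIntegral_const]
  have hv1 : (volume.real (Ioo 0 Real.pi)) = Real.pi := by
    rw [Measure.real, Real.volume_Ioo, ENNReal.toReal_ofReal (by linarith)]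
    ring
  have hv2 : volume.real (B ∩ Ioo 0 Real.pi) ≤ 2 * ε := by
    have h2 : B ∩ Ioo 0 Real.pi ⊆ Ioo 0 ε ∪ Ioo (Real.pi - ε) Real.pi := by
      rintro θ ⟨h3, h4⟩
      by_cases h5 : θ < ε
      · exact Or.inl ⟨h4.1, h5⟩
      · refine Or.inr ⟨?_, h4.2⟩
        by_contra h6
        exact h3 ⟨not_lt.1 h5, not_lt.1 h6⟩
    have h3 : volume (B ∩ Ioo 0 Real.pi) ≤ ENNReal.ofReal (2 * ε) := by
      refine (measure_mono h2).trans ((measure_union_le _ _).trans ?_)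
      rw [Real.volume_Ioo, Real.volume_Ioo, ← ENNReal.ofReal_add (by linarith) (by linarith)]
      apply ENNReal.ofReal_le_ofReal
      linarith
    rw [Measure.real]
    exact ENNReal.toReal_le_of_le_ofReal (by positivity) h3
  rw [hv1, smul_eq_mul, smul_eq_mul]
  have h5 : volume.real (B ∩ Ioo 0 Real.pi) * (K₀ + Real.pi) ≤ 2 * ε * (K₀ + Real.pi) :=
    mul_le_mul_of_nonneg_right hv2 (by positivity)
  calc Real.pi * ((K₀ + Real.pi) * η) + volume.real (B ∩ Ioo 0 Real.pi) * (K₀ + Real.pi)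
      ≤ Real.pi * ((K₀ + Real.pi) * η) + 2 * ε * (K₀ + Real.pi) := by linarith
    _ = _ := by ring

/-! ### The driver before the exit -/

theorem drv_bdd {Φ : (ℝ × ℝ) ≃ₜ (ℝ × ℝ)} {ψ : ℂ → ℂ}
    {δ : ℕ → ℝ} {N k : ℕ → ℕ} {p : ∀ n, ZMod (N n) → ℤ × ℤ} {S : ℕ → Finset (ℤ × ℤ)}
    {ψn : ℕ → ℂ → ℂ} (H : Set6 Φ ψ δ N k p S ψn) (T R : ℝ) :
    ∃ C : ℝ, 0 < C ∧ ∀ᶠ n in atTop, ∀ κ : Finset (Sym2 (ℤ × ℤ)) → ℕ,
      BefIx (exn δ N k p S ψn n) T R κ → ∀ h ∈ (exn δ N k p S ψn n).C,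
        0 ≤ (exn δ N k p S ψn n).c h (κ h) ∧ (exn δ N k p S ψn n).c h (κ h) ≤ C ∧
        ContinuousOn ((exn δ N k p S ψn n).W h) (Icc 0 ((exn δ N k p S ψn n).c h (κ h))) ∧
        ∀ s ∈ Icc 0 ((exn δ N k p S ψn n).c h (κ h)), |(exn δ N k p S ψn n).W h s| ≤ C := by
  obtain ⟨n₀, hn₀⟩ := eventually_atTop.1 (good_ev H.appr)
  have hD := H.dcs Vale.Agent.P153.R2.R1.i_uinj hn₀
  have hX := hD.asymB
  set X : ℕ → Expl (Finset (Sym2 (ℤ × ℤ))) Medial := fun n => exn δ N k p S ψn (n + n₀) with hXd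
  have hX' : AsymB X := hX
  obtain ⟨C, hC0, hC⟩ := hX'.ok.path_bd T R
  refine ⟨C, hC0, ?_⟩
  filter_upwards [eventually_ge_atTop n₀] with n hn κ hκ h hh
  obtain ⟨m, rfl⟩ : ∃ m, n = m + n₀ := ⟨n - n₀, by omega⟩
  have hh' : h ∈ (X m).C := hh
  obtain ⟨k1, k2⟩ := hκ.2 h hh
  have hbef : (sysX X).Bef T R m ⟨h, hh'⟩ (κ h) := by
    intro j hj
    obtain ⟨k3, k4⟩ := k2 j hj
    have hjK : j ≤ (X m).K h := by
      have : κ h < (X m).K h := k1
      omega
    have e4 : (sysX X).τ m j ⟨h, hh'⟩ = (X m).c h j := Expl.tt_le hjK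
    have e5 : (sysX X).V m j ⟨h, hh'⟩ = (X m).V h j := Expl.W_tt_le hjK
    rw [e4, e5]
    exact ⟨k3, k4⟩
  obtain ⟨hp, hτ⟩ := hC m ⟨h, hh'⟩ (κ h) hbef
  have e1 : (sysX X).τ m (κ h) ⟨h, hh'⟩ = (X m).c h (κ h) := Expl.tt_le (le_of_lt k1)
  rw [e1] at hτ hp
  have hτ0 : 0 ≤ (X m).c h (κ h) := by
    have := (hX'.wf m).tt_nonneg hh' (κ h)
    rwa [Expl.tt_le (le_of_lt k1)] at this
  exact ⟨hτ0, hτ, (W_cont (X := X) m ⟨h, hh'⟩).mono Icc_subset_Ici_self,
    fun s hs => hp s hs.1 hs.2⟩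

end Vale.Agent.P167.H632S2
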