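import Vale.Agent.P167.H397.Q.S2Defs
import Vale.Agent.P167.H212.ObsL

/-!
# P167, Stage II, S2-CLOSE: comparison of the exploration with finitely many polygons (the literal
geometric input `Geo2Q`)

`Cmp K δ`: an approximation in the class `K`, with the meshes `δ`, of a marked Jordan domain (with a
uniformizer). `At2`: except on histories of small weight, the conditional probabilities of the events
`L_z`, `z = ψ (b e^{iθ})`, are between those of two polygons of a finite family, in the coordinates of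
whose uniformizers `z` has nearly the same argument as `g_t (b e^{iθ}) - W_t`.
-/

set_option autoImplicit false

open MeasureTheory Filter Topology Set

namespace Vale.Agent.P167.H632S2

open Vale.Agent.P167.FK
open Vale.Agent.P167.E6 Vale.Agent.P167.E2
open Vale.Agent.P153.R2.Final (dom circ toC IsUniformizer)
open Vale.Agent.P153.M1 (Expl)
open Vale.Agent.P167.QE (Cls wq BefIx ExW cexW CloseP I_closePOn)
open Vale.Agent.P167.H397.Q
open Vale.Agent.P167.H411 (Set6 exn)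
open Vale.Agent.P167.H212 (pz obsL)
open Vale.Agent.P167.H947 (flow)

/-- An approximation in the class `K`, with the meshes `δ`, of a marked Jordan domain with a
uniformizer. -/
structure Cmp (K : Cls) (δ : ℕ → ℝ) where
  Φ : (ℝ × ℝ) ≃ₜ (ℝ × ℝ)
  ψ : ℂ → ℂ
  N : ℕ → ℕ
  k : ℕ → ℕ
  p : ∀ n, ZMod (N n) → ℤ × ℤ
  S : ℕ → Finset (ℤ × ℤ)
  unif : IsUniformizer Φ ψ
  appr : Approx Φ δ N k p S
  cls : K Φ δ N k p S

/-- The indicator of the event `L` for the face `f`, as a function of the set of open edges. -/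
noncomputable def indL {n : ℕ} (p : ZMod n → ℤ × ℤ) (k : ℕ) (f : ℤ × ℤ)
    (A : Finset (Sym2 (ℤ × ℤ))) : ℝ :=
  (LZ (H192.ro (p (-1))) (H192.rf f)).indicator 1 (H192.cfg (wiredOpen p k A))

/-- **The comparison for one lattice domain.** `m` is the index of the domain in the sequence. -/
def At2 (q : ℝ) {K : Cls} {δ : ℕ → ℝ} {n : ℕ} (X : Expl (Finset (Sym2 (ℤ × ℤ))) Medial)
    (w : Finset (Sym2 (ℤ × ℤ)) → ℝ) (p : ZMod n → ℤ × ℤ) (k : ℕ) (ψ : ℂ → ℂ) (T R b ε ρ : ℝ)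
    (F : Set (Cmp K δ)) (m : ℕ) : Prop :=
  ∀ κ : Finset (Sym2 (ℤ × ℤ)) → ℕ, BefIx X T R κ →
    ExW X.C w ({A | ¬ ∃ P ∈ F, ∃ P' ∈ F, ∀ θ ∈ Icc ε (Real.pi - ε), ∀ f : ℤ × ℤ,
      dist ((δ m : ℂ) * pt f) (ψ (pz b θ)) ≤ 2 * δ m →
        PL q (P.p m) (P.k m) (P.S m) f - ε ≤ cexW X w (indL p k f) A (κ A) ∧
        cexW X w (indL p k f) A (κ A) ≤ PL q (P'.p m) (P'.k m) (P'.S m) f + ε ∧
        ∀ Q : Cmp K δ, (Q = P ∨ Q = P') →
          Metric.ball (ψ (pz b θ)) ρ ⊆ toC '' dom Q.Φ ∧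
          ∀ ζ : ℂ, 0 < ζ.im → Q.ψ ζ = ψ (pz b θ) →
            |ζ.arg - (flow (X.W A) (X.c A (κ A)) (pz b θ) - X.W A (X.c A (κ A))).arg| ≤
              ε}.indicator 1) ≤ ε

/-- **[GEO2Q]** The geometric input of Stage II for the approximations in the class `K'`: comparison
with finitely many polygons of the class `K`. -/
def Geo2Q (K K' : Cls) (q : ℝ) : Prop := ∀ (Φ : (ℝ × ℝ) ≃ₜ (ℝ × ℝ)) (ψ : ℂ → ℂ)
  (δ : ℕ → ℝ) (N k : ℕ → ℕ) (p : ∀ n, ZMod (N n) → ℤ × ℤ) (S : ℕ → Finset (ℤ × ℤ))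
  (ψn : ℕ → ℂ → ℂ), Set6 Φ ψ δ N k p S ψn → K' Φ δ N k p S → ∀ T R : ℝ, 0 ≤ T → 0 < R →
    ∃ b₁ : ℝ, ∀ b : ℝ, b₁ ≤ b → ∀ ε : ℝ, 0 < ε → ∃ ρ : ℝ, 0 < ρ ∧
      ∃ F : Set (Cmp K δ), F.Finite ∧ ∀ᶠ n in atTop,
        At2 q (exn δ N k p S ψn n) (wq q (N n) (p n) (k n) (S n)) (p n) (k n) ψ T R b ε ρ F n

end Vale.Agent.P167.H632S2
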