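import Vale.Agent.P167.H632.S2.Close
import Vale.Agent.P167.H174.CT.Stop

/-!
# P167, Stage II, S2-CLOSE: `I_closePOn` for the interior observable from `Geo2Q` and `PasLim`
-/

set_option autoImplicit false
set_option linter.unusedVariables false

open MeasureTheory Filter Topology Set

namespace Vale.Agent.P167.H632S2

open Vale.Agent.P167.FK
open Vale.Agent.P167.E6 Vale.Agent.P167.E2
open Vale.Agent.P153.R2.Final (dom circ toC IsUniformizer)
open Vale.Agent.P153.R2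
open Vale.Agent.P153.M1
open Vale.Agent.P167.QE
open Vale.Agent.P167.H397.Q
open Vale.Agent.P167.H411 (Set6 exn cyl mem_cyl cyl_sub AsymB good_ev DCs Qc)
open Vale.Agent.P167.H212 (pz obsL arg_flow continuous_pz)
open Vale.Agent.P167.H947 (flow hasDerivAt_flow)

theorem indL_01 {n : ℕ} (p : ZMod n → ℤ × ℤ) (k : ℕ) (f : ℤ × ℤ) (A : Finset (Sym2 (ℤ × ℤ))) :
    0 ≤ indL p k f A ∧ indL p k f A ≤ 1 := by
  unfold indL
  by_cases h : H192.cfg (wiredOpen p k A) ∈ LZ (H192.ro (p (-1))) (H192.rf f)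
  · rw [indicator_of_mem h]
    simp
  · rw [indicator_of_notMem h]
    simp

/-- The functional. -/
noncomputable def phL {n : ℕ} (p : ZMod n → ℤ × ℤ) (k : ℕ) (δ : ℝ) (ψ : ℂ → ℂ) (K₀ b s t : ℝ)
    (A : Finset (Sym2 (ℤ × ℤ))) : ℝ :=
  ∫ θ in Ioo 0 Real.pi, (s + t * indL p k (fc δ (ψ (pz b θ))) A) * (K₀ + θ)

theorem meas_indL {n : ℕ} (p : ZMod n → ℤ × ℤ) (k : ℕ) {δ : ℝ} {ψ : ℂ → ℂ} {b : ℝ}
    (hc : ContinuousOn (fun θ => ψ (pz b θ)) (Ioo 0 Real.pi)) (s t : ℝ)
    (A : Finset (Sym2 (ℤ × ℤ))) :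
    AEStronglyMeasurable (fun θ => s + t * indL p k (fc δ (ψ (pz b θ))) A)
      (volume.restrict (Ioo 0 Real.pi)) := by
  have h1 : AEMeasurable (fun θ => ψ (pz b θ)) (volume.restrict (Ioo 0 Real.pi)) :=
    hc.aemeasurable measurableSet_Ioo
  have h2 : Measurable (fc δ) := by
    unfold fc
    refine Measurable.prodMk ?_ ?_
    · exact Int.measurable_floor.comp (Complex.measurable_re.div_const δ)
    · exact Int.measurable_floor.comp (Complex.measurable_im.div_const δ)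
  have h3 : Measurable fun f : ℤ × ℤ => s + t * indL p k f A := measurable_of_countable _
  exact ((h3.comp h2).comp_aemeasurable h1).aestronglyMeasurable

/-- **Closeness of the interior observable at stopping indices.** -/
theorem closePOn {K K' : Cls} {q : ℝ} (hq : 0 < q) {h : ℂ → ℝ}
    (hh : ContinuousOn h {z | 0 < z.im}) (hL : PasLim K q h) {f : ℝ → ℝ} (hf : Monotone f)
    (f0 : ∀ x, 0 ≤ f x) (f1 : ∀ x, f x ≤ 1) (hfc : ContinuousOn f (Ioo 0 Real.pi)) {s t : ℝ}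
    (hst : (s = 0 ∧ t = 1) ∨ (s = 1 ∧ t = -1)) (hfh : ∀ z : ℂ, 0 < z.im → f z.arg = s + t * h z)
    {K₀ : ℝ} (hK : 0 ≤ K₀) (hG : Geo2Q K K' q) : I_closePOn K' (wq q) (obsL f K₀) := by
  classical
  intro Φ ψ δ N k p S ψn H hK' T R hT hR
  have hp := Real.pi_pos
  have htt : t * t = 1 := by rcases hst with ⟨-, rfl⟩ | ⟨-, rfl⟩ <;> norm_num
  have hta : |t| = 1 := by rcases hst with ⟨-, rfl⟩ | ⟨-, rfl⟩ <;> norm_num
  have hst01 : ∀ x : ℝ, 0 ≤ x → x ≤ 1 → 0 ≤ s + t * x ∧ s + t * x ≤ 1 := by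
    rcases hst with ⟨rfl, rfl⟩ | ⟨rfl, rfl⟩ <;> intro x h1 h2 <;> constructor <;> linarith
  obtain ⟨b₁, hb₁⟩ := hG Φ ψ δ N k p S ψn H hK' T R hT hR
  obtain ⟨C, hC0, hdrv⟩ := drv_bdd H T R
  obtain ⟨b₂, hb₂, harg⟩ := arg_cont hC0.le hC0.le
  refine ⟨max b₁ b₂, fun b hb => ⟨(K₀ + Real.pi) * Real.pi, fun ε hε => ?_⟩⟩
  have hbb₁ := (le_max_left _ _).trans hb
  have hbb₂ := (le_max_right _ _).trans hb
  have hb0 : 0 < b := lt_of_lt_of_le hb₂ hbb₂
  set L : ℝ := K₀ + Real.pi with hLdef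
  have hL0 : 0 < L := by positivity
  obtain ⟨η, hη⟩ : ∃ η, η = ε / (2 * L * Real.pi) := ⟨_, rfl⟩
  have hη0 : 0 < η := by rw [hη]; positivity
  obtain ⟨ε₁, hε₁, huc⟩ := mono_uc hf hp hfc (show (0 : ℝ) < η / 4 by positivity)
  obtain ⟨ε', hε'd⟩ : ∃ ε', ε' = min (min ε₁ (η / 2)) (min ε (ε / (4 * L))) := ⟨_, rfl⟩
  have hε'0 : 0 < ε' := by rw [hε'd]; positivity
  have hε'1 : ε' ≤ ε₁ := by rw [hε'd]; exact (min_le_left _ _).trans (min_le_left _ _)
  have hε'2 : ε' ≤ η / 2 := by rw [hε'd]; exact (min_le_left _ _).trans (min_le_right _ _)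
  have hε'3 : ε' ≤ ε := by rw [hε'd]; exact (min_le_right _ _).trans (min_le_left _ _)
  have hε'4 : ε' ≤ ε / (4 * L) := by rw [hε'd]; exact (min_le_right _ _).trans (min_le_right _ _)
  have hsum : L * (Real.pi * η + 2 * ε') ≤ ε := by
    have h1 : L * (Real.pi * η) = ε / 2 := by
      rw [hη]
      field_simp
    have h2 : L * (2 * ε') ≤ ε / 2 := by
      calc L * (2 * ε') ≤ L * (2 * (ε / (4 * L))) := by gcongr
        _ = ε / 2 := by field_simp; norm_num
    rw [mul_add]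
    linarith
  obtain ⟨ρ, hρ, F, hF, hat⟩ := hb₁ b hbb₁ ε' hε'0
  -- the points
  have hcI : ContinuousOn (fun θ => ψ (pz b θ)) (Ioo 0 Real.pi) := by
    have h1 : ContinuousOn ψ {z | 0 < z.im} := H.unif.1.continuousOn
    refine h1.comp (continuous_pz b).continuousOn fun θ hθ => ?_
    show 0 < (pz b θ).im
    rw [H212.im_pz]
    exact mul_pos hb0 (Real.sin_pos_of_pos_of_lt_pi hθ.1 hθ.2)
  have hIcc : Icc ε' (Real.pi - ε') ⊆ Ioo 0 Real.pi := fun θ hθ =>
    ⟨lt_of_lt_of_le hε'0 hθ.1, lt_of_le_of_lt hθ.2 (by linarith)⟩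
  have hun : ∀ᶠ n in atTop, ∀ Q ∈ F, ∀ θ ∈ Icc ε' (Real.pi - ε'),
      Metric.ball (ψ (pz b θ)) ρ ⊆ toC '' dom Q.Φ → ∀ g : ℤ × ℤ,
      dist ((δ n : ℂ) * pt g) (ψ (pz b θ)) ≤ 2 * δ n → ∀ ζ : ℂ, 0 < ζ.im →
      Q.ψ ζ = ψ (pz b θ) → |PL q (Q.p n) (Q.k n) (Q.S n) g - h ζ| ≤ η / 4 := by
    rw [eventually_all_finite hF]
    intro Q hQ
    exact unif hh hL Q isCompact_Icc (hcI.mono hIcc) hρ (by positivity)
  refine ⟨fun n => phL (p n) (k n) (δ n) ψ K₀ b s t, ?_⟩
  filter_upwards [hat, hun, hdrv] with n hn1 hn2 hn3 κ hκ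
  have hδ : 0 < δ n := (H.appr.1 n).1
  set X := exn δ N k p S ψn n with hX
  set w : Finset (Sym2 (ℤ × ℤ)) → ℝ := wq q (N n) (p n) (k n) (S n) with hw
  have hXf : X.C.Finite := H174.CT.exn_fin
  have hwp : ∀ a ∈ X.C, 0 < w a := fun a _ => wq_pos hq _ _ _ _ a
  -- the conditional expectation of the functional
  have hint : ∀ (A : Finset (Sym2 (ℤ × ℤ))), A ∈ X.C →
      cexW X w (phL (p n) (k n) (δ n) ψ K₀ b s t) A (κ A) =
      ∫ θ in Ioo 0 Real.pi,
        (s + t * cexW X w (indL (p n) (k n) (fc (δ n) (ψ (pz b θ)))) A (κ A)) * (K₀ + θ) := by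
    intro A hA
    have h1 : cexW X w (phL (p n) (k n) (δ n) ψ K₀ b s t) A (κ A) =
        ∫ θ in Ioo 0 Real.pi,
          ExW (cyl X A (κ A)) w (fun a => s + t * indL (p n) (k n) (fc (δ n) (ψ (pz b θ))) a) *
            (K₀ + θ) := by
      unfold cexW phL
      refine exW_integral (cyl_fin hXf A _)
        (g := fun θ a => s + t * indL (p n) (k n) (fc (δ n) (ψ (pz b θ))) a)
        (m := fun θ => K₀ + θ) fun a _ => ?_
      refine Integrable.of_bound (C := K₀ + Real.pi) ((meas_indL (p n) (k n) hcI s t a).mul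
        ((continuous_const.add continuous_id).aestronglyMeasurable)) ?_
      filter_upwards [ae_restrict_mem measurableSet_Ioo] with θ hθ
      obtain ⟨h2, h3⟩ := indL_01 (p n) (k n) (fc (δ n) (ψ (pz b θ))) a
      obtain ⟨h4, h5⟩ := hst01 _ h2 h3
      rw [Real.norm_eq_abs, abs_mul, abs_of_nonneg h4,
        abs_of_nonneg (by linarith [hθ.1] : 0 ≤ K₀ + θ)]
      calc _ ≤ 1 * (K₀ + Real.pi) :=
            mul_le_mul h5 (by linarith [hθ.2]) (by linarith [hθ.1]) zero_le_one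
        _ = _ := one_mul _
    rw [h1]
    refine integral_congr_ae (Eventually.of_forall fun θ => ?_)
    simp only
    congr 1
    exact cexW_affine hXf hwp hA (κ A) s t _
  -- measurability of the conditional expectations in the angle
  have hGm : ∀ A ∈ X.C, AEStronglyMeasurable
      (fun θ => s + t * cexW X w (indL (p n) (k n) (fc (δ n) (ψ (pz b θ)))) A (κ A))
      (volume.restrict (Ioo 0 Real.pi)) := by
    intro A hA
    have h1 : AEMeasurable (fun θ => ψ (pz b θ)) (volume.restrict (Ioo 0 Real.pi)) :=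
      hcI.aemeasurable measurableSet_Ioo
    have h2 : Measurable (fc (δ n)) := by
      unfold fc
      refine Measurable.prodMk ?_ ?_
      · exact Int.measurable_floor.comp (Complex.measurable_re.div_const (δ n))
      · exact Int.measurable_floor.comp (Complex.measurable_im.div_const (δ n))
    have h3 : Measurable fun g : ℤ × ℤ => s + t * cexW X w (indL (p n) (k n) g) A (κ A) :=
      measurable_of_countable _
    exact ((h3.comp h2).comp_aemeasurable h1).aestronglyMeasurable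
  have hG01 : ∀ A ∈ X.C, ∀ θ : ℝ,
      0 ≤ s + t * cexW X w (indL (p n) (k n) (fc (δ n) (ψ (pz b θ)))) A (κ A) ∧
      s + t * cexW X w (indL (p n) (k n) (fc (δ n) (ψ (pz b θ)))) A (κ A) ≤ 1 := by
    intro A hA θ
    obtain ⟨h1, h2⟩ := cexW_mem01 hXf hwp hA (κ A)
      (g := indL (p n) (k n) (fc (δ n) (ψ (pz b θ)))) (fun a => (indL_01 _ _ _ a).1)
      (fun a => (indL_01 _ _ _ a).2)
    exact hst01 _ h1 h2
  refine ⟨fun A hA => ?_, ?_⟩
  · rw [hint A hA, ← Real.norm_eq_abs]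
    have h1 := norm_setIntegral_le_of_norm_le_const (μ := volume) (s := Ioo 0 Real.pi)
      (f := fun θ => (s + t * cexW X w (indL (p n) (k n) (fc (δ n) (ψ (pz b θ)))) A (κ A)) *
        (K₀ + θ)) (C := L)
      (by rw [Real.volume_Ioo]; exact ENNReal.ofReal_lt_top) (fun θ hθ => by
        obtain ⟨h4, h5⟩ := hG01 A hA θ
        rw [Real.norm_eq_abs, abs_mul, abs_of_nonneg h4,
          abs_of_nonneg (by linarith [hθ.1] : 0 ≤ K₀ + θ)]
        calc _ ≤ 1 * L := mul_le_mul h5 (by rw [hLdef]; linarith [hθ.2])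
              (by linarith [hθ.1]) zero_le_one
          _ = _ := one_mul _)
    refine h1.trans (le_of_eq ?_)
    rw [Measure.real, Real.volume_Ioo, ENNReal.toReal_ofReal (by linarith)]
    ring
  · refine le_trans ?_ ((hn1 κ hκ).trans hε'3)
    refine exW_mono hXf hwp fun A hA => ?_
    obtain ⟨bad, hbad⟩ : ∃ bad : Set (Finset (Sym2 (ℤ × ℤ))), bad = {A | ¬ ∃ P ∈ F, ∃ P' ∈ F,
      ∀ θ ∈ Icc ε' (Real.pi - ε'), ∀ f : ℤ × ℤ,
      dist ((δ n : ℂ) * pt f) (ψ (pz b θ)) ≤ 2 * δ n →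
        PL q (P.p n) (P.k n) (P.S n) f - ε' ≤ cexW X w (indL (p n) (k n) f) A (κ A) ∧
        cexW X w (indL (p n) (k n) f) A (κ A) ≤ PL q (P'.p n) (P'.k n) (P'.S n) f + ε' ∧
        ∀ Q : Cmp K δ, (Q = P ∨ Q = P') →
          Metric.ball (ψ (pz b θ)) ρ ⊆ toC '' dom Q.Φ ∧
          ∀ ζ : ℂ, 0 < ζ.im → Q.ψ ζ = ψ (pz b θ) →
            |ζ.arg - (flow (X.W A) (X.c A (κ A)) (pz b θ) - X.W A (X.c A (κ A))).arg| ≤
              ε'} := ⟨_, rfl⟩
    rw [← hbad]
    by_cases hAb : A ∈ bad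
    · rw [indicator_of_mem hAb]
      exact indicator_apply_le' (fun _ => le_rfl) fun _ => zero_le_one
    · rw [indicator_of_notMem hAb, indicator_of_notMem]
      rw [mem_ofPred_eq, not_lt]
      rw [hbad, mem_ofPred_eq, not_not] at hAb
      obtain ⟨P, hP, P', hP', hgood⟩ := hAb
      obtain ⟨d1, d2, d3, d4⟩ := hn3 κ hκ A hA
      obtain ⟨a1, a2⟩ := harg (X.W A) b (X.c A (κ A)) d1 d2 d3 d4 hbb₂
      rw [hint A hA]
      unfold obsL
      refine (int_close (F := fun θ => s + t * cexW X w (indL (p n) (k n)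
        (fc (δ n) (ψ (pz b θ)))) A (κ A))
        (G := fun θ => f ((flow (X.W A) (X.c A (κ A)) (pz b θ) -
          X.W A (X.c A (κ A))).arg)) hK hε'0 hη0.le (fun θ _ => hG01 A hA θ)
        (fun θ _ => ⟨f0 _, f1 _⟩) (hGm A hA) ?_ fun θ hθ => ?_).trans hsum
      · exact (hf.measurable.comp_aemeasurable
          (a1.aemeasurable measurableSet_Ioo)).aestronglyMeasurable
      · have hθI := hIcc hθ
        have hx := a2 θ hθI
        obtain ⟨x, hxd⟩ : ∃ x, x = (flow (X.W A) (X.c A (κ A)) (pz b θ) -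
          X.W A (X.c A (κ A))).arg := ⟨_, rfl⟩
        obtain ⟨c, hcd⟩ : ∃ c, c = cexW X w (indL (p n) (k n) (fc (δ n) (ψ (pz b θ)))) A (κ A) :=
          ⟨_, rfl⟩
        obtain ⟨g1, g2, g3⟩ := hgood θ hθ (fc (δ n) (ψ (pz b θ))) (dist_fc hδ _)
        rw [← hcd] at g1 g2
        rw [← hxd] at g3 hx
        -- the value for a polygon
        have hval : ∀ Q : Cmp K δ, Q ∈ F → (Q = P ∨ Q = P') →
            |PL q (Q.p n) (Q.k n) (Q.S n) (fc (δ n) (ψ (pz b θ))) - t * (f x - s)| ≤ η / 2 := by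
          intro Q hQ hQP
          obtain ⟨e1, e2⟩ := g3 Q hQP
          obtain ⟨ζ, hζ, hζe⟩ : ∃ ζ : ℂ, 0 < ζ.im ∧ Q.ψ ζ = ψ (pz b θ) := by
            have h1 := e1 (Metric.mem_ball_self hρ)
            rw [← Q.unif.2.2.1] at h1
            exact h1
          have e3 := hn2 Q hQ θ hθ e1 _ (dist_fc hδ _) ζ hζ hζe
          have e4 := e2 ζ hζ hζe
          have hζarg : ζ.arg ∈ Ioo 0 Real.pi := by
            refine ⟨?_, Complex.arg_lt_pi_iff.2 (Or.inr hζ.ne')⟩
            refine lt_of_le_of_ne (Complex.arg_nonneg_iff.2 hζ.le) fun h2 => ?_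
            have h3 := Complex.arg_eq_zero_iff.1 h2.symm
            rw [h3.2] at hζ
            exact lt_irrefl _ hζ
          have e5 := huc _ hζarg _ hx (e4.trans hε'1)
          have e6 : h ζ = t * (f ζ.arg - s) := by
            rw [hfh ζ hζ, add_sub_cancel_left, ← mul_assoc, htt, one_mul]
          have e7 : |h ζ - t * (f x - s)| ≤ η / 4 := by
            rw [e6, ← mul_sub, abs_mul, hta, one_mul,
              show f ζ.arg - s - (f x - s) = f ζ.arg - f x by ring]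
            exact e5
          calc |PL q (Q.p n) (Q.k n) (Q.S n) (fc (δ n) (ψ (pz b θ))) - t * (f x - s)|
              ≤ |PL q (Q.p n) (Q.k n) (Q.S n) (fc (δ n) (ψ (pz b θ))) - h ζ| +
                |h ζ - t * (f x - s)| := abs_sub_le _ _ _
            _ ≤ η / 2 := by linarith
        have v1 := abs_le.1 (hval P hP (Or.inl rfl))
        have v2 := abs_le.1 (hval P' hP' (Or.inr rfl))
        have v3 : |c - t * (f x - s)| ≤ η := by
          rw [abs_le]
          constructor <;> linarith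
        have v4 : s + t * c - f x = t * (c - t * (f x - s)) := by
          rw [mul_sub, ← mul_assoc, htt, one_mul]
          ring
        show |s + t * cexW X w (indL (p n) (k n) (fc (δ n) (ψ (pz b θ)))) A (κ A) -
          f ((flow (X.W A) (X.c A (κ A)) (pz b θ) - X.W A (X.c A (κ A))).arg)| ≤ η
        rw [← hcd, ← hxd, v4, abs_mul, hta, one_mul]
        exact v3

end Vale.Agent.P167.H632S2
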