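import Vale.Agent.P167.H632.S2.Defs

/-!
# P167, Stage II, S2-CLOSE: uniform convergence of the probabilities of `L` in the point
-/

set_option autoImplicit false

open MeasureTheory Filter Topology Set

namespace Vale.Agent.P167.H632S2

open Vale.Agent.P167.FK
open Vale.Agent.P167.E6 Vale.Agent.P167.E2
open Vale.Agent.P153.R2.Final (dom circ toC IsUniformizer)
open Vale.Agent.P153.M1 (Expl)
open Vale.Agent.P167.QE (Cls wq BefIx ExW cexW CloseP I_closePOn)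
open Vale.Agent.P167.H397.Q

/-- The inverse of a uniformizer is continuous in the domain. -/
theorem inv_tendsto {Φ : (ℝ × ℝ) ≃ₜ (ℝ × ℝ)} {ψ : ℂ → ℂ} (h : IsUniformizer Φ ψ) {u : ℕ → ℂ}
    {z : ℂ} (hu : ∀ n, 0 < (u n).im) (hz : 0 < z.im)
    (hl : Tendsto (fun n => ψ (u n)) atTop (𝓝 (ψ z))) : Tendsto u atTop (𝓝 z) := by
  obtain ⟨hd, hi, -, -⟩ := h
  have ho : IsOpen {z : ℂ | 0 < z.im} := isOpen_lt continuous_const Complex.continuous_im
  have hpc : IsPreconnected {z : ℂ | 0 < z.im} := (convex_halfSpace_im_gt 0).isPreconnected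
  have han : AnalyticOnNhd ℂ ψ {z | 0 < z.im} := hd.analyticOnNhd ho
  rw [tendsto_def]
  intro s hs
  have hsU : s ∩ {z : ℂ | 0 < z.im} ∈ 𝓝 z := inter_mem hs (ho.mem_nhds hz)
  obtain ⟨V, hVs, hVo, hzV⟩ := mem_nhds_iff.1 hsU
  have hopen : IsOpen (ψ '' V) := by
    rcases han.is_constant_or_isOpen hpc with ⟨w, hw⟩ | h
    · exfalso
      have h1 : (2 * Complex.I : ℂ) = Complex.I := hi (by simp) (by simp)
        (by rw [hw _ (by simp), hw _ (by simp)])
      have h2 := congrArg Complex.im h1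
      norm_num at h2
    · exact h V (fun x hx => (hVs hx).2) hVo
  have h1 := hl.eventually (hopen.mem_nhds (mem_image_of_mem ψ hzV))
  filter_upwards [h1] with n hn
  obtain ⟨v, hv, hve⟩ := hn
  have h2 : v = u n := hi (hVs hv).2 (hu n) hve
  rw [h2] at hv
  exact (hVs hv).1

/-- A face near a point. -/
noncomputable def fc (δ : ℝ) (z : ℂ) : ℤ × ℤ := (⌊z.re / δ⌋, ⌊z.im / δ⌋)

theorem dist_fc {δ : ℝ} (hδ : 0 < δ) (z : ℂ) : dist ((δ : ℂ) * pt (fc δ z)) z ≤ 2 * δ := by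
  have h1 := Int.floor_le (z.re / δ)
  have h2 := Int.lt_floor_add_one (z.re / δ)
  have h3 := Int.floor_le (z.im / δ)
  have h4 := Int.lt_floor_add_one (z.im / δ)
  rw [le_div_iff₀ hδ] at h1 h3
  rw [div_lt_iff₀ hδ] at h2 h4
  rw [dist_eq_norm]
  refine (Complex.norm_le_abs_re_add_abs_im _).trans ?_
  have e1 : ((δ : ℂ) * pt (fc δ z) - z).re = ⌊z.re / δ⌋ * δ - z.re := by
    simp [pt, fc]
    ring
  have e2 : ((δ : ℂ) * pt (fc δ z) - z).im = ⌊z.im / δ⌋ * δ - z.im := by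
    simp [pt, fc]
    ring
  rw [e1, e2]
  have h5 : |(⌊z.re / δ⌋ : ℝ) * δ - z.re| ≤ δ := by rw [abs_le]; constructor <;> nlinarith
  have h6 : |(⌊z.im / δ⌋ : ℝ) * δ - z.im| ≤ δ := by rw [abs_le]; constructor <;> nlinarith
  linarith

/-- **The probabilities of `L` converge uniformly**, along a compact arc of points which are at a
distance `ρ` from the complement of the domain. -/
theorem unif {K : Cls} {q : ℝ} {h : ℂ → ℝ} (hh : ContinuousOn h {z | 0 < z.im})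
    (hL : PasLim K q h) {δ : ℕ → ℝ} (Q : Cmp K δ) {I : Set ℝ} (hI : IsCompact I) {c : ℝ → ℂ}
    (hc : ContinuousOn c I) {ρ : ℝ} (hρ : 0 < ρ) {η : ℝ} (hη : 0 < η) :
    ∀ᶠ n in atTop, ∀ θ ∈ I, Metric.ball (c θ) ρ ⊆ toC '' dom Q.Φ → ∀ f : ℤ × ℤ,
      dist ((δ n : ℂ) * pt f) (c θ) ≤ 2 * δ n → ∀ ζ : ℂ, 0 < ζ.im → Q.ψ ζ = c θ →
        |PL q (Q.p n) (Q.k n) (Q.S n) f - h ζ| ≤ η := by
  classical
  by_contra hcon
  have hδ0 : ∀ n, 0 < δ n := fun n => (Q.appr.1 n).1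
  have hδl : Tendsto δ atTop (𝓝 0) := Q.appr.2.1
  rw [not_eventually] at hcon
  obtain ⟨φ, hφ, hbad⟩ := extraction_of_frequently_atTop hcon
  push Not at hbad
  choose θ hθI hball f hf ζ hζ hψζ hfar using hbad
  obtain ⟨θ0, hθ0, σ, hσ, hlim⟩ := hI.tendsto_subseq hθI
  have hφσ : StrictMono (φ ∘ σ) := hφ.comp hσ
  obtain ⟨z, hz⟩ : ∃ z, z = c θ0 := ⟨_, rfl⟩
  have hzlim : Tendsto (fun j => c (θ (σ j))) atTop (𝓝 z) := by
    rw [hz]
    have h1 : Tendsto (fun j => θ (σ j)) atTop (𝓝[I] θ0) :=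
      tendsto_nhdsWithin_iff.2 ⟨hlim, Eventually.of_forall fun j => hθI _⟩
    exact (hc θ0 hθ0).tendsto.comp h1
  -- the limit point is in the domain
  have hzD : z ∈ toC '' dom Q.Φ := by
    obtain ⟨j, hj⟩ := (Metric.tendsto_nhds.1 hzlim ρ hρ).exists
    exact hball (σ j) (Metric.mem_ball'.2 hj)
  obtain ⟨ζ0, hζ0, hψ0⟩ : ∃ ζ0 : ℂ, 0 < ζ0.im ∧ Q.ψ ζ0 = z := by
    have h1 := Q.unif.2.2.1
    rw [← h1] at hzD
    exact hzD
  -- the faces, extended to all indices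
  obtain ⟨g, hg⟩ : ∃ g : ℕ → ℤ × ℤ, g = fun n =>
      if h : ∃ j, φ (σ j) = n then f (σ h.choose) else fc (δ n) z := ⟨_, rfl⟩
  have hgj : ∀ j, g (φ (σ j)) = f (σ j) := by
    intro j
    have h1 : ∃ i, φ (σ i) = φ (σ j) := ⟨j, rfl⟩
    have h2 : h1.choose = j := hφσ.injective h1.choose_spec
    rw [hg]
    simp only
    rw [dif_pos h1, h2]
  have hgl : Tendsto (fun n => (δ n : ℂ) * pt (g n)) atTop (𝓝 (Q.ψ ζ0)) := by
    rw [hψ0, Metric.tendsto_atTop]
    intro e he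
    obtain ⟨n1, hn1⟩ := (Metric.tendsto_atTop.1 hδl) (e / 4) (by positivity)
    obtain ⟨j1, hj1⟩ := (Metric.tendsto_atTop.1 hzlim) (e / 4) (by positivity)
    refine ⟨max n1 (φ (σ j1)), fun n hn => ?_⟩
    have hn2 := hn1 n ((le_max_left _ _).trans hn)
    rw [Real.dist_eq, sub_zero, abs_of_pos (hδ0 n)] at hn2
    by_cases h1 : ∃ j, φ (σ j) = n
    · obtain ⟨j, rfl⟩ := h1
      rw [hgj]
      have h2 : j1 ≤ j := by
        by_contra h3
        have h4 := hφσ (not_le.1 h3)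
        have h5 := (le_max_right n1 (φ (σ j1))).trans hn
        exact absurd h4 (not_lt.2 h5)
      have h3 := hf (σ j)
      have h4 := hj1 j h2
      calc dist ((δ (φ (σ j)) : ℂ) * pt (f (σ j))) z
          ≤ dist ((δ (φ (σ j)) : ℂ) * pt (f (σ j))) (c (θ (σ j))) + dist (c (θ (σ j))) z :=
            dist_triangle _ _ _
        _ < e := by linarith
    · have h2 : g n = fc (δ n) z := by
        rw [hg]
        simp only
        rw [dif_neg h1]
      rw [h2]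
      have h3 := dist_fc (hδ0 n) z
      linarith
  have hPL := hL Q.Φ Q.ψ δ Q.N Q.k Q.p Q.S Q.unif Q.appr Q.cls ζ0 hζ0 g hgl
  have hPL2 := hPL.comp hφσ.tendsto_atTop
  have hζl : Tendsto (fun j => ζ (σ j)) atTop (𝓝 ζ0) := by
    refine inv_tendsto Q.unif (fun j => hζ _) hζ0 ?_
    rw [hψ0]
    exact hzlim.congr fun j => (hψζ (σ j)).symm
  have hhl : Tendsto (fun j => h (ζ (σ j))) atTop (𝓝 (h ζ0)) := by
    have ho : IsOpen {z : ℂ | 0 < z.im} := isOpen_lt continuous_const Complex.continuous_im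
    exact ((hh.continuousAt (ho.mem_nhds hζ0)).tendsto).comp hζl
  have hd := (hPL2.sub hhl)
  rw [sub_self] at hd
  obtain ⟨j, hj⟩ := (Metric.tendsto_nhds.1 hd η hη).exists
  rw [Real.dist_eq, sub_zero] at hj
  have h1 := hfar (σ j)
  simp only [Function.comp] at hj
  rw [hgj] at hj
  exact absurd hj (not_lt.2 h1.le)

end Vale.Agent.P167.H632S2
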